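import Vale.Agent.Lib.P082.helper95.MainN

namespace Vale.Agent.Results.P082.AllDegrees

open Vale.Agent.Lib.P082.H95N

universe v

/-- Every degree of the Kadison-Ringrose conjecture is equivalent to its quantitative form with
one universal constant.  `HVanishes M n` says that every bounded Hochschild cocycle `f` of
degree `n+1` of the von Neumann algebra `M` with values in `M` is the coboundary `f = dg` of a
bounded `n`-linear map `g` (for `n = 0`, of an element of `M`), that is `H_b^(n+1)(M, M) = 0`,
and `HVanishesWith M n C` says that moreover `g` can be chosen with `‖g‖ ≤ C * ‖f‖`.  The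
theorem, for each `n`: `H_b^(n+1)(M, M) = 0` for every von Neumann algebra `M` (on Hilbert
spaces in one universe) if and only if there is a single constant `C` such that
`HVanishesWith M n C` holds for every von Neumann algebra `M`. -/
theorem result (n : ℕ) :
    (∀ (H : Type v) [NormedAddCommGroup H] [InnerProductSpace ℂ H] [CompleteSpace H]
        (M : VonNeumannAlgebra H), HVanishes M n) ↔
    ∃ C : ℝ, ∀ (H : Type v) [NormedAddCommGroup H] [InnerProductSpace ℂ H] [CompleteSpace H]
        (M : VonNeumannAlgebra H), HVanishesWith M n C :=
  main_equivN n

end Vale.Agent.Results.P082.AllDegrees
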