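import Vale.Agent.Lib.P082.helper95.Main

namespace Vale.Agent.Results.P082.UniversalConstant

open Vale.Agent.Lib.P082.H95

universe v

/-- Degree 2 of the Kadison-Ringrose conjecture is equivalent to its quantitative form with one
universal constant.  `H2Vanishes M` says that every bounded Hochschild 2-cocycle `f` of the von
Neumann algebra `M` with values in `M` is the coboundary `f = dg` of a bounded linear map
`g : M → M`, and `H2VanishesWith M C` says that moreover `g` can be chosen with
`‖g‖ ≤ C * ‖f‖`.  The theorem: `H_b^2(M, M) = 0` for every von Neumann algebra `M` (on
Hilbert spaces in one universe) if and only if there is a single constant `C` such that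
`H2VanishesWith M C` holds for every von Neumann algebra `M`. -/
theorem result :
    (∀ (H : Type v) [NormedAddCommGroup H] [InnerProductSpace ℂ H] [CompleteSpace H]
        (M : VonNeumannAlgebra H), H2Vanishes M) ↔
    ∃ C : ℝ, ∀ (H : Type v) [NormedAddCommGroup H] [InnerProductSpace ℂ H] [CompleteSpace H]
        (M : VonNeumannAlgebra H), H2VanishesWith M C :=
  main_equiv

end Vale.Agent.Results.P082.UniversalConstant
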